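import Vale.Agent.P354M53.Defs

/-! P354 (helper53): from manifolds of Mathlib to the chart description. -/

open scoped ContDiff Manifold
open Set Filter Topology

namespace Vale.Agent.P354M53

open Vale.Agent.P354n (R4 Spc IsIsom IsSpacetime IsFutureCurve mink)

/-- The differential, with values in R4. -/
noncomputable def md {M M' : Type} [TopologicalSpace M] [ChartedSpace R4 M] [TopologicalSpace M']
    [ChartedSpace R4 M'] (f : M → M') (x : M) : R4 →L[ℝ] R4 := mfderiv I4 I4 f x

/-- The metric and the vector field, on R4. -/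
noncomputable def gg (S : Lor) (x : S.M) (a b : R4) : ℝ := S.g x a b
def tt (S : Lor) (x : S.M) : R4 := S.T x

/-- The chart description. -/
noncomputable def Lor.spc (S : Lor) : Spc where
  pt := S.M
  Chart := atlas R4 S.M
  toE e := e.1
  cover p := ⟨⟨chartAt R4 p, chart_mem_atlas R4 p⟩, mem_chart_source R4 p⟩
  g e := co e.1
  X e := ct e.1

section
variable {M M' : Type} [TopologicalSpace M] [ChartedSpace R4 M] [TopologicalSpace M']
  [ChartedSpace R4 M'] [IsManifold I4 ∞ M] [IsManifold I4 ∞ M']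
  {e : OpenPartialHomeomorph M R4} {e' : OpenPartialHomeomorph M' R4}

theorem md_symm_md (he : e ∈ atlas R4 M) {x : M} (hx : x ∈ e.source) (a : R4) :
    md e.symm (e x) (md e x a) = a :=
  congrArg (fun L => L a) ((mdifferentiable_of_mem_atlas (I := I4) he).symm_comp_deriv hx)

theorem md_md_symm (he : e ∈ atlas R4 M) {y : R4} (hy : y ∈ e.target) (a : R4) :
    md e (e.symm y) (md e.symm y a) = a :=
  congrArg (fun L => L a) ((mdifferentiable_of_mem_atlas (I := I4) he).comp_symm_deriv hy)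

theorem md_symm_md' (he : e ∈ atlas R4 M) {y : R4} (hy : y ∈ e.target) (a : R4) :
    md e.symm y (md e (e.symm y) a) = a := by
  have h := md_symm_md he (e.map_target hy) a
  rwa [e.right_inv hy] at h

theorem sm (he : e ∈ atlas R4 M) {x : M} (hx : x ∈ e.source) : ContMDiffAt I4 I4 ∞ e x :=
  contMDiffAt_of_mem_maximalAtlas (IsManifold.subset_maximalAtlas he) hx

theorem sm' (he : e ∈ atlas R4 M) {y : R4} (hy : y ∈ e.target) : ContMDiffAt I4 I4 ∞ e.symm y :=
  contMDiffAt_symm_of_mem_maximalAtlas (IsManifold.subset_maximalAtlas he) hy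

theorem chart_smooth (he : e ∈ atlas R4 M) (he' : e' ∈ atlas R4 M') {f : M → M'} {y : R4}
    (hy : y ∈ e.target) (hy' : f (e.symm y) ∈ e'.source) (hf : ContMDiffAt I4 I4 ∞ f (e.symm y)) :
    ContDiffAt ℝ ∞ (fun y => e' (f (e.symm y))) y :=
  contMDiffAt_iff_contDiffAt.1 ((sm he' hy').comp y (hf.comp y (sm' he hy)))

theorem chart_deriv (he : e ∈ atlas R4 M) (he' : e' ∈ atlas R4 M') {f : M → M'} {y : R4}
    (hy : y ∈ e.target) (hy' : f (e.symm y) ∈ e'.source) (hf : ContMDiffAt I4 I4 ∞ f (e.symm y))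
    (a : R4) : md e'.symm (e' (f (e.symm y))) (lineDeriv ℝ (fun y => e' (f (e.symm y))) y a) =
      md f (e.symm y) (md e.symm y a) := by
  have d := (chart_smooth he he' hy hy' hf).differentiableAt (by simp)
  have h1 := (sm' he hy).mdifferentiableAt (by simp)
  have h2 := hf.mdifferentiableAt (by simp)
  have h3 := (sm he' hy').mdifferentiableAt (by simp)
  have k1 := mfderiv_comp y h2 h1
  have k2 := mfderiv_comp (g := e') (f := f ∘ e.symm) y h3 (h2.comp y h1)
  rw [mfderiv_eq_fderiv, k1] at k2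
  have k3 : lineDeriv ℝ (fun y => e' (f (e.symm y))) y a =
      md e' (f (e.symm y)) (md f (e.symm y) (md e.symm y a)) := by
    rw [d.lineDeriv_eq_fderiv]
    exact congrArg (fun L => L a) k2
  rw [k3, md_symm_md he' hy']

theorem smooth_of_chart (he : e ∈ atlas R4 M) (he' : e' ∈ atlas R4 M') {f : M → M'} {x : M}
    (hx : x ∈ e.source) (hx' : f x ∈ e'.source) (hc : ContinuousAt f x)
    (hf : ContDiffAt ℝ ∞ (fun y => e' (f (e.symm y))) (e x)) : ContMDiffAt I4 I4 ∞ f x := by
  have h0 : e' (f (e.symm (e x))) ∈ e'.target := by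
    rw [e.left_inv hx]; exact e'.map_source hx'
  have h1 := (sm' he' h0).comp x
    ((contMDiffAt_iff_contDiffAt.2 hf).comp x (sm he hx))
  refine h1.congr_of_eventuallyEq ?_
  filter_upwards [e.open_source.mem_nhds hx, hc.eventually_mem (e'.open_source.mem_nhds hx')]
    with z hz hz'
  simp only [Function.comp]
  rw [e.left_inv hz, e'.left_inv hz']

theorem curve_deriv (he : e ∈ atlas R4 M) {c : ℝ → M} {I : Set ℝ} {t : ℝ}
    (hI : UniqueDiffWithinAt ℝ I t) (ht : c t ∈ e.source)
    (hc : ContMDiffWithinAt 𝓘(ℝ, ℝ) I4 1 c I t) :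
    ContDiffWithinAt ℝ 1 (fun s => e (c s)) I t ∧
    md e.symm (e (c t)) (derivWithin (fun s => e (c s)) I t) =
      mfderivWithin 𝓘(ℝ, ℝ) I4 c I t (1 : ℝ) := by
  have h0 := ((sm he ht).of_le (m := 1) (by simp)).comp_contMDiffWithinAt t hc
  refine ⟨contMDiffWithinAt_iff_contDiffWithinAt.1 h0, ?_⟩
  have k := mfderiv_comp_mfderivWithin (g := e) t ((sm he ht).mdifferentiableAt (by simp))
    (hc.mdifferentiableWithinAt one_ne_zero) hI.uniqueMDiffWithinAt
  rw [mfderivWithin_eq_fderivWithin] at k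
  have k3 : derivWithin (fun s => e (c s)) I t =
      md e (c t) (mfderivWithin 𝓘(ℝ, ℝ) I4 c I t (1 : ℝ)) := congrArg (fun L => L (1 : ℝ)) k
  rw [k3]
  exact md_symm_md he ht _

theorem curve_of_chart (he : e ∈ atlas R4 M) {c : ℝ → M} {I : Set ℝ} {t : ℝ}
    (ht : c t ∈ e.source) (hc : ContinuousWithinAt c I t)
    (h : ContDiffWithinAt ℝ 1 (fun s => e (c s)) I t) :
    ContMDiffWithinAt 𝓘(ℝ, ℝ) I4 1 c I t := by
  have h1 := ((sm' he (e.map_source ht)).of_le (m := 1) (by simp)).comp_contMDiffWithinAt t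
    (contMDiffWithinAt_iff_contDiffWithinAt.2 h)
  refine h1.congr_of_eventuallyEq ?_ (e.left_inv ht).symm
  filter_upwards [hc.eventually_mem (e.open_source.mem_nhds ht)] with z hz
  exact (e.left_inv hz).symm

theorem cont_md (he : e ∈ atlas R4 M) {A : Type} [TopologicalSpace A] {D : Set A} {p : A → M}
    {v : A → R4} (hp : MapsTo p D e.source)
    (h : ContinuousOn (fun z => (⟨p z, v z⟩ : TangentBundle I4 M)) D) :
    ContinuousOn (fun z => md e (p z) (v z)) D := by
  have h1 := (contMDiffOn_of_mem_maximalAtlas (I := I4) (n := ∞)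
    (IsManifold.subset_maximalAtlas he)).continuousOn_tangentMapWithin (by simp)
    e.open_source.uniqueMDiffOn
  have h2 := (continuous_snd.comp
    (tangentBundleModelSpaceHomeomorph (H := R4) I4).continuous).comp_continuousOn (h1.comp h hp)
  refine h2.congr fun z hz => ?_
  have k := mfderivWithin_of_isOpen (I := I4) (I' := I4) (f := e) e.open_source (hp hz)
  exact (congrArg (fun L => L (v z)) k).symm

theorem cont_md_symm (he : e ∈ atlas R4 M) {v : R4 → R4} (hv : ContinuousOn v e.target) :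
    ContinuousOn (fun x => (⟨x, md e.symm (e x) (v (e x))⟩ : TangentBundle I4 M)) e.source := by
  have h1 := (contMDiffOn_symm_of_mem_maximalAtlas (I := I4) (n := ∞)
    (IsManifold.subset_maximalAtlas he)).continuousOn_tangentMapWithin (by simp)
    e.open_target.uniqueMDiffOn
  have h0 : ContinuousOn (fun x => (⟨e x, v (e x)⟩ : TangentBundle I4 R4)) e.source :=
    (tangentBundleModelSpaceHomeomorph (H := R4) I4).symm.continuous.comp_continuousOn
      (e.continuousOn.prodMk (hv.comp e.continuousOn e.mapsTo))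
  refine (h1.comp h0 e.mapsTo).congr fun x hx => ?_
  have k := mfderivWithin_of_isOpen (I := I4) (I' := I4) (f := e.symm) e.open_target
    (e.map_source hx)
  have k2 : (mfderivWithin I4 I4 e.symm e.target (e x) (v (e x)) : R4) =
      md e.symm (e x) (v (e x)) := congrArg (fun L => L (v (e x))) k
  have k3 : ∀ (x x' : M) (a a' : R4), x = x' → a = a' →
      (⟨x, a⟩ : TangentBundle I4 M) = ⟨x', a'⟩ := by
    rintro x _ a _ rfl rfl; rfl
  exact k3 _ _ _ _ (e.left_inv hx).symm k2.symm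

end

variable {S N : Lor}

theorem co_eq (e : OpenPartialHomeomorph S.M R4) (y a b : R4) :
    co e y a b = gg S (e.symm y) (md e.symm y a) (md e.symm y b) := rfl

theorem ct_eq (e : OpenPartialHomeomorph S.M R4) (y : R4) :
    ct e y = md e (e.symm y) (tt S (e.symm y)) := rfl

theorem md_ct {e : OpenPartialHomeomorph S.M R4} (he : e ∈ atlas R4 S.M) {y : R4}
    (hy : y ∈ e.target) : md e.symm y (ct e y) = tt S (e.symm y) := by
  rw [ct_eq, md_symm_md' he hy]

theorem isIso_iff {f : S.M → N.M} : IsIso f ↔ ContMDiff I4 I4 ∞ f ∧ ∀ x,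
    (∀ a b, gg N (f x) (md f x a) (md f x b) = gg S x a b) ∧
    gg N (f x) (md f x (tt S x)) (tt N (f x)) < 0 := Iff.rfl

theorem IsIso.isom {f : S.M → N.M} (h : IsIso f) : IsIsom (M := S.spc) (N := N.spc) f := by
  rintro ⟨e, he⟩ ⟨e', he'⟩ F rfl y hy hy'
  replace hy : y ∈ e.target := hy
  replace hy' : f (e.symm y) ∈ e'.source := hy'
  obtain ⟨h1, h2⟩ := isIso_iff.1 h
  have k := chart_deriv he he' hy hy' (h1 _)
  have m := e'.map_source hy'
  refine ⟨chart_smooth he he' hy hy' (h1 _), fun a b => ?_, ?_⟩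
  · change co e y a b = co e' (e' (f (e.symm y))) (lineDeriv ℝ (fun y => e' (f (e.symm y))) y a)
      (lineDeriv ℝ (fun y => e' (f (e.symm y))) y b)
    rw [co_eq, co_eq, k, k, e'.left_inv hy', (h2 _).1]
  · change co e' (e' (f (e.symm y))) (lineDeriv ℝ (fun y => e' (f (e.symm y))) y (ct e y))
      (ct e' (e' (f (e.symm y)))) < 0
    rw [co_eq, k, md_ct he hy, md_ct he' m, e'.left_inv hy']
    exact (h2 _).2

theorem IsIso.of {f : S.M → N.M} (hc : Continuous f) (h : IsIsom (M := S.spc) (N := N.spc) f) :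
    IsIso f := by
  have key : ∀ x, ContMDiffAt I4 I4 ∞ f x ∧
      (∀ a b, gg N (f x) (md f x a) (md f x b) = gg S x a b) ∧
      gg N (f x) (md f x (tt S x)) (tt N (f x)) < 0 := fun x => by
    obtain ⟨e, he, hx⟩ : ∃ e ∈ atlas R4 S.M, x ∈ e.source :=
      ⟨_, chart_mem_atlas R4 x, mem_chart_source R4 x⟩
    obtain ⟨e', he', hx'⟩ : ∃ e ∈ atlas R4 N.M, f x ∈ e.source :=
      ⟨_, chart_mem_atlas R4 _, mem_chart_source R4 _⟩
    obtain ⟨y, hy, rfl⟩ : ∃ y ∈ e.target, e.symm y = x := ⟨e x, e.map_source hx, e.left_inv hx⟩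
    obtain ⟨a1, a2, a3⟩ := h ⟨e, he⟩ ⟨e', he'⟩ _ rfl y hy hx'
    have s : ContMDiffAt I4 I4 ∞ f (e.symm y) :=
      smooth_of_chart he he' hx hx' hc.continuousAt (by rw [e.right_inv hy]; exact a1)
    have k := chart_deriv he he' hy hx' s
    have m := e'.map_source hx'
    refine ⟨s, fun a b => ?_, ?_⟩
    · have k2 : co e y _ _ = co e' (e' (f (e.symm y)))
          (lineDeriv ℝ (fun y => e' (f (e.symm y))) y _)
          (lineDeriv ℝ (fun y => e' (f (e.symm y))) y _) :=
        a2 (md e (e.symm y) a) (md e (e.symm y) b)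
      rw [co_eq, co_eq, k, k, e'.left_inv hx', md_symm_md' he hy, md_symm_md' he hy] at k2
      exact k2.symm
    · have k2 : co e' (e' (f (e.symm y))) (lineDeriv ℝ (fun y => e' (f (e.symm y))) y (ct e y))
          (ct e' (e' (f (e.symm y)))) < 0 := a3
      rwa [co_eq, k, md_ct he hy, md_ct he' m, e'.left_inv hx'] at k2
  exact isIso_iff.2 ⟨fun x => (key x).1, fun x => (key x).2⟩

theorem isCurve_iff {I : Set ℝ} (hI : UniqueDiffOn ℝ I) {c : ℝ → S.M} :
    IsCurve S I c ↔ IsFutureCurve S.spc 0 I c := by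
  constructor
  · rintro ⟨h1, h2⟩
    refine ⟨h1.continuousOn, ?_⟩
    rintro t ht ⟨e, he⟩ hc
    replace hc : c t ∈ e.source := hc
    obtain ⟨k1, k2⟩ := curve_deriv he (hI t ht) hc (h1 t ht)
    refine ⟨k1, ?_⟩
    rintro y w rfl rfl
    obtain ⟨a1, a2⟩ := h2 t ht
    change co e (e (c t)) (derivWithin (fun s => e (c s)) I t)
      (derivWithin (fun s => e (c s)) I t) < -0 ∧
      co e (e (c t)) (derivWithin (fun s => e (c s)) I t) (ct e (e (c t))) < 0
    rw [co_eq, co_eq, k2, md_ct he (e.map_source hc), e.left_inv hc, neg_zero]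
    exact ⟨a1, a2⟩
  · rintro ⟨h1, h2⟩
    have key : ∀ t ∈ I, ContMDiffWithinAt 𝓘(ℝ, ℝ) I4 1 c I t ∧
        gg S (c t) (mfderivWithin 𝓘(ℝ, ℝ) I4 c I t (1 : ℝ))
          (mfderivWithin 𝓘(ℝ, ℝ) I4 c I t (1 : ℝ)) < 0 ∧
        gg S (c t) (mfderivWithin 𝓘(ℝ, ℝ) I4 c I t (1 : ℝ)) (tt S (c t)) < 0 := fun t ht => by
      obtain ⟨e, he, hc⟩ : ∃ e ∈ atlas R4 S.M, c t ∈ e.source :=
        ⟨_, chart_mem_atlas R4 _, mem_chart_source R4 _⟩
      obtain ⟨a1, a2⟩ := h2 t ht ⟨e, he⟩ hc
      have s := curve_of_chart he hc (h1 t ht) a1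
      obtain ⟨-, k2⟩ := curve_deriv he (hI t ht) hc s
      have a3 : co e (e (c t)) (derivWithin (fun s => e (c s)) I t)
          (derivWithin (fun s => e (c s)) I t) < -0 ∧
          co e (e (c t)) (derivWithin (fun s => e (c s)) I t) (ct e (e (c t))) < 0 :=
        a2 _ _ rfl rfl
      rw [co_eq, co_eq, k2, md_ct he (e.map_source hc), e.left_inv hc, neg_zero] at a3
      exact ⟨s, a3⟩
    exact ⟨fun t ht => (key t ht).1, fun t ht => (key t ht).2⟩

theorem IsLor.spacetime {Reg : (R4 → ℝ) → Set R4 → Prop} (h : IsLor Reg S) :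
    IsSpacetime Reg S.spc where
  tensor := by
    refine IsIso.isom (S := S) (N := S) (isIso_iff.2 ⟨contMDiff_id, fun x => ?_⟩)
    have k : ∀ a, md (id : S.M → S.M) x a = a := fun a =>
      congrArg (fun L => L a) (mfderiv_id (I := I4) (x := x))
    refine ⟨fun a b => ?_, ?_⟩
    · change gg S x (md (id : S.M → S.M) x a) (md (id : S.M → S.M) x b) = _
      rw [k, k]
    · change gg S x (md (id : S.M → S.M) x (tt S x)) (tt S x) < 0
      rw [k]
      exact h.timelike x
  signature := by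
    rintro ⟨e, he⟩ y hy
    obtain ⟨L, l1, l2, hL⟩ := h.signature (e.symm y)
    refine ⟨fun a => L (md e.symm y a), ⟨fun a b => ?_, fun t a => ?_⟩, fun a b hab => ?_,
      fun a b => hL _ _⟩
    · rw [map_add]; exact l1.map_add _ _
    · rw [map_smul]; exact l1.map_smul _ _
    · have k : md e.symm y a = md e.symm y b := l2.1 hab
      rw [← md_md_symm he hy a, k, md_md_symm he hy]
  timelike := by
    rintro ⟨e, he⟩ y hy
    change co e y (ct e y) (ct e y) < 0
    rw [co_eq, md_ct he hy]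
    exact h.timelike _
  continuous := by
    rintro ⟨e, he⟩
    exact cont_md he (p := e.symm) (v := fun y => tt S (e.symm y)) e.mapsTo_symm
      (h.continuous.comp_continuousOn e.continuousOn_symm)
  regular := by
    rintro ⟨e, he⟩
    exact h.regular e he

end Vale.Agent.P354M53
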