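import Vale.Agent.P354M53.B1
import Vale.Agent.P354V.Main

/-! P354 (helper53): from the chart description to manifolds of Mathlib. -/

open scoped ContDiff Manifold
open Set Filter Topology

namespace Vale.Agent.P354M53

open Vale.Agent.P354n (R4 Spc IsIsom IsSpacetime IsFutureCurve mink IsSmooth IsConn Riem On tgt inv
  IsVacuum)
open Vale.Agent.P354I (X Dat IsDev)

variable {N : Spc}

/-- A chart at p. -/
noncomputable def ch (N : Spc) (p : N.pt) : N.Chart := (N.cover p).choose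

theorem ch_mem (p : N.pt) : p ∈ (N.toE (ch N p)).source := (N.cover p).choose_spec

theorem ch_tgt (p : N.pt) : N.toE (ch N p) p ∈ tgt (ch N p) := (N.toE _).map_source (ch_mem p)

/-- The atlas. -/
@[reducible] noncomputable def charts (N : Spc) : ChartedSpace R4 N.pt where
  atlas := range N.toE
  chartAt p := N.toE (ch N p)
  mem_chart_source := ch_mem
  chart_mem_atlas _ := mem_range_self _

theorem man (hN : IsSpacetime IsSmooth N) : @IsManifold ℝ _ R4 _ _ R4 _ I4 ∞ N.pt _ (charts N) := by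
  let := charts N
  refine isManifold_of_contDiffOn I4 ∞ N.pt ?_
  rintro _ _ ⟨e, rfl⟩ ⟨e', rfl⟩ y hy
  exact (hN.tensor e e' _ rfl y hy.1.1 hy.1.2).1.contDiffWithinAt

/-- The manifold with the metric of N and the field T. -/
noncomputable def lor0 (hN : IsSpacetime IsSmooth N) (T : N.pt → R4) : Lor where
  M := N.pt
  charts := charts N
  manifold := man hN
  g x := (LinearMap.mk₂ ℝ (N.g (ch N x) (N.toE (ch N x) x))
    (hN.up.bilin _ (ch_tgt x)).add_left (hN.up.bilin _ (ch_tgt x)).smul_left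
    (hN.up.bilin _ (ch_tgt x)).add_right (hN.up.bilin _ (ch_tgt x)).smul_right :
    R4 →ₗ[ℝ] R4 →ₗ[ℝ] ℝ)
  T := T

variable {hN : IsSpacetime IsSmooth N} {T : N.pt → R4}

theorem gg_lor0 (x : N.pt) (a b : R4) :
    gg (lor0 hN T) x a b = N.g (ch N x) (N.toE (ch N x) x) a b := rfl

theorem mem_atlas (e : N.Chart) : N.toE e ∈ atlas R4 (lor0 hN T).M := mem_range_self e

theorem md_lor0 (e : N.Chart) {y : R4} (hy : y ∈ tgt e) (a : R4) :
    md (M' := (lor0 hN T).M) (N.toE e).symm y a =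
      lineDeriv ℝ (fun z => N.toE (ch N (inv e y)) (inv e z)) y a := by
  have k := chart_deriv (M := (lor0 hN T).M) (M' := (lor0 hN T).M) (f := id) (mem_atlas e)
    (mem_atlas (ch N (inv e y))) hy (ch_mem (inv e y)) contMDiffAt_id a
  have k1 : ∀ (x : (lor0 hN T).M) a, md (id : (lor0 hN T).M → (lor0 hN T).M) x a = a :=
    fun x a => congrArg (fun L => L a) (mfderiv_id (I := I4) (x := x))
  have k2 : ∀ (x : (lor0 hN T).M) a, md (M := (lor0 hN T).M) (N.toE (ch N x)) x a = a :=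
    fun x a => congrArg (fun L => L a) (mfderiv_extChartAt_self (I := I4) (x := x))
  have k3 : ∀ (x : (lor0 hN T).M) a,
      md (M' := (lor0 hN T).M) (N.toE (ch N x)).symm (N.toE (ch N x) x) a = a := fun x a => by
    exact (congrArg _ (k2 x a)).symm.trans
      (md_symm_md (M := (lor0 hN T).M) (mem_atlas (ch N x)) (ch_mem x) a)
  exact (k1 _ _).symm.trans (k.symm.trans (k3 _ _))

theorem co_lor0 (e : N.Chart) {y : R4} (hy : y ∈ tgt e) :
    co (S := lor0 hN T) (N.toE e) y = N.g e y := by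
  funext a b
  have k := (hN.tensor e (ch N (inv e y)) _ rfl y hy (ch_mem _)).2.1 a b
  exact (congrArg₂ (gg (lor0 hN T) (inv e y)) (md_lor0 e hy a) (md_lor0 e hy b)).trans k.symm

theorem co_ev (e : N.Chart) {y : R4} (hy : y ∈ tgt e) :
    co (S := lor0 hN T) (N.toE e) =ᶠ[𝓝 y] N.g e :=
  Filter.mem_of_superset ((N.toE e).open_target.mem_nhds hy) fun _ hz => co_lor0 e hz

/-- The future cone at x. -/
def cone (N : Spc) (x : N.pt) : Set R4 :=
  {v | N.g (ch N x) (N.toE (ch N x) x) v v < 0 ∧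
    N.g (ch N x) (N.toE (ch N x) x) v (N.X (ch N x) (N.toE (ch N x) x)) < 0}

theorem cone_lt (hN : IsSpacetime IsSmooth N) {x : N.pt} {u v : R4} (hu : u ∈ cone N x)
    (hv : v ∈ cone N x) : N.g (ch N x) (N.toE (ch N x) x) u v < 0 :=
  hN.up.same_cone _ (ch_tgt x) (hN.timelike _ _ (ch_tgt x)) hu.1 hu.2 hv.1.le hv.2

theorem cone_convex (hN : IsSpacetime IsSmooth N) (x : N.pt) : Convex ℝ (cone N x) := by
  intro u hu v hv a b ha hb hab
  have B : P354.Bilin (N.g (ch N x) (N.toE (ch N x) x)) := hN.up.bilin _ (ch_tgt x)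
  have h1 := cone_lt hN hu hv
  have h2 := cone_lt hN hv hu
  obtain ⟨h3, h4⟩ := hu
  obtain ⟨h5, h6⟩ := hv
  have pos : ∀ {p q : ℝ}, p < 0 → q < 0 → a * p + b * q < 0 := fun {p q} hp hq => by
    rcases ha.eq_or_lt with k | k
    · have : b = 1 := by linarith
      rw [← k, this]; linarith
    · nlinarith [mul_pos k (neg_pos.2 hp), mul_nonneg hb (neg_pos.2 hq).le]
  refine ⟨?_, ?_⟩
  · simp only [B.add_left, B.add_right, B.smul_left, B.smul_right]
    have := pos (pos h3 h1) (pos h2 h5)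
    linarith
  · simp only [B.add_left, B.smul_left]
    exact pos h4 h6

theorem md_mem_cone (e : N.Chart) {y : R4} (hy : y ∈ tgt e) :
    md (M' := (lor0 hN T).M) (N.toE e).symm y (N.X e y) ∈ cone N (inv e y) := by
  obtain ⟨-, k1, k2⟩ := hN.tensor e (ch N (inv e y)) _ rfl y hy (ch_mem _)
  rw [md_lor0 e hy]
  exact ⟨(k1 _ _).symm.trans_lt (hN.timelike e y hy), k2⟩

theorem exists_T (hN : IsSpacetime IsSmooth N) [SecondCountableTopology N.pt] :
    ∃ T : N.pt → R4, (Continuous fun x : (lor0 hN 0).M =>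
      (⟨x, T x⟩ : TangentBundle I4 (lor0 hN 0).M)) ∧ ∀ x, T x ∈ cone N x := by
  have : SecondCountableTopology (lor0 hN 0).M := ‹SecondCountableTopology N.pt›
  have : LocallyCompactSpace (lor0 hN 0).M := ChartedSpace.locallyCompactSpace R4 _
  obtain ⟨s, hs⟩ := exists_contMDiffSection_forall_mem_convex_of_local (n := 0) I4
    (F_fiber := R4) (TangentSpace I4 (M := (lor0 hN 0).M)) (cone N) (cone_convex hN) fun x₀ => by
      refine ⟨(N.toE (ch N x₀)).source, (N.toE _).open_source.mem_nhds (ch_mem x₀),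
        fun x => md (M' := (lor0 hN 0).M) (N.toE (ch N x₀)).symm (N.toE (ch N x₀) x)
          (N.X (ch N x₀) (N.toE (ch N x₀) x)), ?_, fun x hx => ?_⟩
      · exact contMDiffOn_zero_iff.2
          (cont_md_symm (M := (lor0 hN 0).M) (mem_atlas (ch N x₀)) (hN.continuous _))
      · have k := md_mem_cone (hN := hN) (T := 0) (ch N x₀) ((N.toE _).map_source hx)
        rwa [show inv (ch N x₀) (N.toE (ch N x₀) x) = x from (N.toE _).left_inv hx] at k
  exact ⟨s, s.contMDiff.continuous, hs⟩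

theorem isLor_lor0 (hc : Continuous fun x : (lor0 hN 0).M =>
    (⟨x, T x⟩ : TangentBundle I4 (lor0 hN 0).M)) (hT : ∀ x, T x ∈ cone N x) :
    IsLor IsSmooth (lor0 hN T) where
  signature x := by
    obtain ⟨L, hL⟩ := hN.up.sig _ (ch_tgt x)
    exact ⟨L, ⟨L.map_add, L.map_smul⟩, L.bijective, hL⟩
  timelike x := (hT x).1
  continuous := hc
  regular := by
    rintro _ ⟨e, rfl⟩ a b
    exact (hN.regular e a b).congr fun y hy => congrFun (congrFun (co_lor0 e hy) a) b

theorem ct_lt (hT : ∀ x, T x ∈ cone N x) (e : N.Chart) {y : R4} (hy : y ∈ tgt e) :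
    N.g e y (ct (S := lor0 hN T) (N.toE e) y) (ct (S := lor0 hN T) (N.toE e) y) < 0 ∧
    N.g e y (ct (S := lor0 hN T) (N.toE e) y) (N.X e y) < 0 := by
  rw [← co_lor0 (hN := hN) (T := T) e hy]
  have k := md_ct (S := lor0 hN T) (mem_atlas e) hy
  refine ⟨?_, ?_⟩
  · exact (congrArg₂ (gg (lor0 hN T) (inv e y)) k k).trans_lt (hT _).1
  · exact (congrArg₂ (gg (lor0 hN T) (inv e y)) k rfl).trans_lt
      (cone_lt hN (hT _) (md_mem_cone e hy))

theorem fut_iff (hT : ∀ x, T x ∈ cone N x) (e : N.Chart) {y : R4} (hy : y ∈ tgt e) {w : R4}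
    (hw : N.g e y w w < 0) :
    N.g e y w (ct (S := lor0 hN T) (N.toE e) y) < 0 ↔ N.g e y w (N.X e y) < 0 := by
  obtain ⟨k1, k2⟩ := ct_lt (hN := hN) hT e hy
  have k3 := hN.timelike e y hy
  exact ⟨fun h => hN.up.same_cone e hy k1 hw h k3.le ((hN.up.symm e hy _ _).trans_lt k2),
    fun h => hN.up.same_cone e hy k3 hw h k1.le k2⟩

theorem isom_to (hT : ∀ x, T x ∈ cone N x) : IsIsom (M := N) (N := (lor0 hN T).spc) id := by
  rintro e ⟨_, e', rfl⟩ F rfl y hy hy'
  obtain ⟨a1, a2, a3⟩ := hN.tensor e e' _ rfl y hy hy'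
  have m : N.toE e' (inv e y) ∈ tgt e' := (N.toE e').map_source hy'
  have k := co_lor0 (hN := hN) (T := T) e' m
  refine ⟨a1, fun a b => (a2 a b).trans (congrFun (congrFun k _) _).symm, ?_⟩
  exact (congrFun (congrFun k _) _).trans_lt
    ((fut_iff hT e' m ((a2 _ _).symm.trans_lt (hN.timelike e y hy))).2 a3)

theorem isom_from (hT : ∀ x, T x ∈ cone N x) : IsIsom (M := (lor0 hN T).spc) (N := N) id := by
  rintro ⟨_, e, rfl⟩ e' F rfl y hy hy'
  obtain ⟨a1, a2, a3⟩ := hN.tensor e e' _ rfl y hy hy'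
  have m : N.toE e' (inv e y) ∈ tgt e' := (N.toE e').map_source hy'
  have k := co_lor0 (hN := hN) (T := T) e hy
  refine ⟨a1, fun a b => (congrFun (congrFun k _) _).trans (a2 a b), ?_⟩
  obtain ⟨k1, k2⟩ := ct_lt (hN := hN) hT e hy
  exact hN.up.same_cone e' m ((a2 _ _).symm.trans_lt (hN.timelike e y hy))
    ((a2 _ _).symm.trans_lt k1) ((a2 _ _).symm.trans_lt k2) (hN.timelike e' _ m).le
    ((hN.up.symm e' m _ _).trans_lt a3)

theorem conn_congr {g g' : R4 → R4 → R4 → ℝ} {G : R4 → R4 → R4 → R4} {x : R4}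
    (h : g =ᶠ[𝓝 x] g') (hg : IsConn g' G x) : IsConn g G x := by
  intro a b c
  have k : ∀ u v w, P354n.deriv (fun y => g y u v) x w = P354n.deriv (fun y => g' y u v) x w :=
    fun u v w => Filter.EventuallyEq.lineDeriv_eq (h.mono fun y hy => by simp only [hy])
  rw [k, k, k, h.eq_of_nhds]
  exact hg a b c

theorem riem_congr {g g' : R4 → R4 → R4 → ℝ} (G : R4 → R4 → R4 → R4) {x : R4}
    (h : g =ᶠ[𝓝 x] g') (a b c d : R4) : Riem g G x a b c d = Riem g' G x a b c d := by
  have k : ∀ u v w z, P354n.deriv (fun y => g y (G y u v) z) x w =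
      P354n.deriv (fun y => g' y (G y u v) z) x w :=
    fun u v w z => Filter.EventuallyEq.lineDeriv_eq (h.mono fun y hy => by simp only [hy])
  unfold Riem
  rw [k, k, h.eq_of_nhds]

theorem devel_lor0 {d : Dat} {j : X → N.pt} (h : IsDev d N j)
    (hc : Continuous fun x : (lor0 hN 0).M => (⟨x, T x⟩ : TangentBundle I4 (lor0 hN 0).M))
    (hT : ∀ x, T x ∈ cone N x) : IsDevel d (lor0 hN T) j where
  spacetime := isLor_lor0 hc hT
  connected := h.connected
  countable := h.countable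
  vacuum := by
    rintro _ ⟨e, rfl⟩
    obtain ⟨G, hG⟩ := h.vacuum e
    refine ⟨G, fun y hy => ?_⟩
    obtain ⟨k1, E, E', k2, k3⟩ := hG y hy
    refine ⟨conn_congr (co_ev e hy) k1, E, E', fun i j => ?_, fun b c => ?_⟩
    · exact (congrFun (congrFun (co_lor0 e hy) _) _).trans (k2 i j)
    · exact (Finset.sum_congr rfl fun i _ => riem_congr G (co_ev e hy) _ _ _ _).trans (k3 b c)
  embedding := h.embedding
  cauchy c hc' := by
    obtain ⟨k1, k2⟩ := (isCurve_iff isOpen_Ioo.uniqueDiffOn).1 hc'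
    refine h.cauchy c ⟨k1, fun t ht e he => ?_⟩
    obtain ⟨a1, a2⟩ := k2 t ht ⟨_, mem_atlas e⟩ he
    refine ⟨a1, ?_⟩
    rintro y w rfl rfl
    obtain ⟨a3, a4⟩ := a2 _ _ rfl rfl
    have m : N.toE e (c t) ∈ tgt e := (N.toE e).map_source he
    have k := co_lor0 (hN := hN) (T := T) e m
    have a5 := (congrFun (congrFun k _) _).symm.trans_lt a3
    exact ⟨a5, (fut_iff hT e m (a5.trans_eq neg_zero)).1
      ((congrFun (congrFun k _) _).symm.trans_lt a4)⟩
  induced y hy := by
    obtain ⟨e, J, G, n, rfl, a1, a2, a3, a4, a5, a6⟩ := h.induced y hy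
    have m : N.toE e (j y) ∈ tgt e := (N.toE e).map_source a1
    have k := co_lor0 (hN := hN) (T := T) e m
    refine ⟨_, mem_atlas e, _, G, n, rfl, a1, a2, conn_congr (co_ev e m) a3,
      (congrFun (congrFun k _) _).trans a4, (congrFun (congrFun k _) _).trans_lt
        ((fut_iff hT e m (a4.trans_lt (by norm_num))).2 a5), fun i l => ?_⟩
    obtain ⟨b1, b2, b3⟩ := a6 i l
    exact ⟨(congrFun (congrFun k _) _).trans b1, (congrFun (congrFun k _) _).trans b2,
      (congrArg Neg.neg (congrFun (congrFun k _) _)).trans b3⟩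

/-- Every development is a manifold of Mathlib. -/
theorem exists_devel {d : Dat} {j : X → N.pt} (h : IsDev d N j) : ∃ T : N.pt → R4,
    IsDevel d (lor0 h.spacetime T) j ∧ IsIsom (M := N) (N := (lor0 h.spacetime T).spc) id ∧
      IsIsom (M := (lor0 h.spacetime T).spc) (N := N) id := by
  have := h.countable
  obtain ⟨T, h1, h2⟩ := exists_T h.spacetime
  exact ⟨T, devel_lor0 h h1 h2, isom_to h2, isom_from h2⟩

theorem IsDevel.dev {d : Dat} {S : Lor} {j : X → S.M} (h : IsDevel d S j) : IsDev d S.spc j where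
  spacetime := h.spacetime.spacetime
  connected := h.connected
  countable := h.countable
  vacuum e := h.vacuum e.1 e.2
  embedding := h.embedding
  cauchy c hc := h.cauchy c ((isCurve_iff isOpen_Ioo.uniqueDiffOn).2 hc)
  induced y hy := by
    obtain ⟨e, he, k⟩ := h.induced y hy
    exact ⟨⟨e, he⟩, k⟩

end Vale.Agent.P354M53
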