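import Vale.Agent.P354Z.Defs

open scoped ContDiff Manifold
open Set Filter Topology

namespace Vale.Agent.P354M53

open Vale.Agent.P354n (R4 IsSmooth IsC0W1 mink IsConn Riem)
open Vale.Agent.P354I (X Dat pd)

/-- The model of the manifolds. -/
noncomputable abbrev I4 : ModelWithCorners ℝ R4 R4 := 𝓘(ℝ, R4)

/-- A Hausdorff smooth 4-manifold M with a field g of bilinear forms on its tangent spaces and a
vector field T. -/
structure Lor where
  M : Type
  [top : TopologicalSpace M]
  [hausdorff : T2Space M]
  [charts : ChartedSpace R4 M]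
  [manifold : IsManifold I4 ∞ M]
  g : (x : M) → TangentSpace I4 x →ₗ[ℝ] TangentSpace I4 x →ₗ[ℝ] ℝ
  T : (x : M) → TangentSpace I4 x

attribute [instance] Lor.top Lor.hausdorff Lor.charts Lor.manifold

/-- The value of g at x on the tangent vectors a, b. -/
noncomputable def ip (S : Lor) (x : S.M) (a b : TangentSpace I4 x) : ℝ := S.g x a b

/-- The differential of f at x on the tangent vector a. -/
noncomputable def df {M M' : Type} [TopologicalSpace M] [ChartedSpace R4 M] [TopologicalSpace M']
    [ChartedSpace R4 M'] (f : M → M') (x : M) (a : TangentSpace I4 x) : TangentSpace I4 (f x) :=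
  mfderiv I4 I4 f x a

/-- The velocity at t of the curve c on the interval I. -/
noncomputable def vel {M : Type} [TopologicalSpace M] [ChartedSpace R4 M] (c : ℝ → M) (I : Set ℝ)
    (t : ℝ) : TangentSpace I4 (c t) :=
  mfderivWithin 𝓘(ℝ, ℝ) I4 c I t (1 : ℝ)

variable {S N : Lor}

/-- The components of g and of T in the chart e, at the point with coordinates y. -/
noncomputable def co (e : OpenPartialHomeomorph S.M R4) (y a b : R4) : ℝ :=
  ip S (e.symm y) (df e.symm y a) (df e.symm y b)
noncomputable def ct (e : OpenPartialHomeomorph S.M R4) (y : R4) : R4 :=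
  df e (e.symm y) (S.T (e.symm y))

/-- g is a Lorentzian metric of signature (-,+,+,+), whose components in the charts have the
regularity Reg, and the continuous timelike field T defines a time orientation. -/
structure IsLor (Reg : (R4 → ℝ) → Set R4 → Prop) (S : Lor) : Prop where
  signature : ∀ x, ∃ L : TangentSpace I4 x → R4, IsLinearMap ℝ L ∧ L.Bijective ∧
    ∀ a b, ip S x a b = mink (L a) (L b)
  timelike : ∀ x, ip S x (S.T x) (S.T x) < 0
  continuous : Continuous fun x => (⟨x, S.T x⟩ : TangentBundle I4 S.M)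
  regular : ∀ e ∈ atlas R4 S.M, ∀ a b, Reg (fun y => co e y a b) e.target

/-- f is smooth, isometric, and preserves the time orientation. -/
def IsIso (f : S.M → N.M) : Prop :=
  ContMDiff I4 I4 ∞ f ∧ ∀ x,
    (∀ a b, ip N (f x) (df f x a) (df f x b) = ip S x a b) ∧
    ip N (f x) (df f x (S.T x)) (N.T (f x)) < 0

/-- The curve c is C^1 on the interval I, and its velocity is timelike and future directed. -/
def IsCurve (S : Lor) (I : Set ℝ) (c : ℝ → S.M) : Prop :=
  ContMDiffOn 𝓘(ℝ, ℝ) I4 1 c I ∧ ∀ t ∈ I,
    ip S (c t) (vel c I t) (vel c I t) < 0 ∧ ip S (c t) (vel c I t) (S.T (c t)) < 0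

/-- The map iota and the curve c form a future extension of S to N, of class C^0 and
W^{1,2}_loc. -/
structure IsExt (S N : Lor) (ι : S.M → N.M) (c : ℝ → N.M) : Prop where
  spacetime : IsLor (IsC0W1 2) N
  connected : ConnectedSpace N.M
  embedding : IsOpenEmbedding ι
  isometry : IsIso ι
  proper : range ι ≠ univ
  curve : IsCurve N (Icc 0 1) c
  curve_mem : ∀ t ∈ Ico (0 : ℝ) 1, c t ∈ range ι
  curve_end : c 1 ∈ frontier (range ι)

/-- g solves the vacuum Einstein equations: its Ricci curvature, which is the trace of the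
curvature over dual bases E, E', is zero. -/
def IsVac (S : Lor) : Prop :=
  ∀ e ∈ atlas R4 S.M, ∃ G, ∀ y ∈ e.target, IsConn (co e) G y ∧ ∃ E E' : Fin 4 → R4,
    (∀ i j, co e y (E i) (E' j) = if i = j then 1 else 0) ∧
    ∀ b c, ∑ i, Riem (co e) G y (E i) b c (E' i) = 0

/-- N is a globally hyperbolic vacuum development of d: a smooth connected second countable
vacuum spacetime, j embeds the cylinder onto a Cauchy hypersurface, and the metric and the second
fundamental form for the future unit normal n induced by j are h and K. J is j in a chart. -/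
structure IsDevel (d : Dat) (N : Lor) (j : X → N.M) : Prop where
  spacetime : IsLor IsSmooth N
  connected : ConnectedSpace N.M
  countable : SecondCountableTopology N.M
  vacuum : IsVac N
  embedding : IsEmbedding (fun y : ({0}ᶜ : Set X) => j y)
  cauchy : ∀ c, IsCurve N (Ioo 0 1) c →
    (∀ x, ¬ Tendsto c (𝓝[<] 1) (𝓝 x) ∧ ¬ Tendsto c (𝓝[>] 0) (𝓝 x)) →
    ∃! t, t ∈ Ioo (0 : ℝ) 1 ∧ c t ∈ j '' {0}ᶜ
  induced : ∀ y ≠ 0, ∃ e ∈ atlas R4 N.M, ∃ J G n, J = (fun z => e (j z)) ∧ j y ∈ e.source ∧
    ContDiffAt ℝ ∞ J y ∧ IsConn (co e) G (J y) ∧ co e (J y) n n = -1 ∧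
    co e (J y) n (ct e (J y)) < 0 ∧ ∀ i k,
      co e (J y) (pd i J y) n = 0 ∧ co e (J y) (pd i J y) (pd k J y) = d.h y i k ∧
      -co e (J y) n (pd i (pd k J) y + G (J y) (pd i J y) (pd k J y)) = d.K y i k

/-- N is the maximal globally hyperbolic vacuum development of d: every development embeds into
it. -/
def IsMax (d : Dat) (N : Lor) (j : X → N.M) : Prop :=
  IsDevel d N j ∧ ∀ (S : Lor) (i : X → S.M), IsDevel d S i →
    ∃ κ : S.M → N.M, IsOpenEmbedding κ ∧ IsIso κ ∧ ∀ y ≠ 0, κ (i y) = j y

/-- The maximal development of d has a future extension of class C^0 and W^{1,2}_loc. -/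
def Extendible (d : Dat) : Prop := ∃ S j, IsMax d S j ∧ ∃ N ι c, IsExt S N ι c

end Vale.Agent.P354M53
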