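import Vale.Agent.P354M53.B2

/-! P354 (helper53): maximal developments and their extensions, for manifolds of Mathlib. -/

open scoped ContDiff Manifold
open Set Filter Topology

namespace Vale.Agent.P354M53

open Vale.Agent.P354n (R4 Spc IsIsom)
open Vale.Agent.P354I (X Dat IsDev Good)
open Vale.Agent.P354Z (IsMGHD Ext)
open Vale.Agent.P354V (isom_comp)

variable {d : Dat}

theorem IsMax.mghd {S : Lor} {j : X → S.M} (h : IsMax d S j) : IsMGHD d S.spc j := by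
  refine ⟨h.1.dev, fun N' j' h' => ?_⟩
  obtain ⟨T, k1, k2, -⟩ := exists_devel h'
  obtain ⟨κ, a1, a2, a3⟩ := h.2 _ _ k1
  exact ⟨κ, a1, isom_comp h'.spacetime k1.dev.spacetime h.1.dev.spacetime continuous_id k2 a2.isom,
    a3⟩

theorem Extendible.ext (h : Extendible d) : Ext d := by
  obtain ⟨S, j, h1, N, ι, c, h2⟩ := h
  exact ⟨S.spc, j, h1.mghd, N.spc, ι, c, h2.connected, h2.spacetime.spacetime, h2.embedding,
    h2.isometry.isom, h2.proper, (isCurve_iff (uniqueDiffOn_Icc zero_lt_one)).1 h2.curve,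
    h2.curve_mem, h2.curve_end⟩

theorem max_unique (h : ∃ N j, IsMGHD d N j ∧ ∀ N' j', IsMGHD d N' j' →
      ∃ κ : N.pt ≃ₜ N'.pt, IsIsom κ ∧ IsIsom κ.symm ∧ ∀ y ≠ 0, κ (j y) = j' y) :
    ∃ N j, IsMax d N j ∧ ∀ N' j', IsMax d N' j' →
      ∃ κ : N.M ≃ₘ^∞⟮I4, I4⟯ N'.M, IsIso κ ∧ ∀ y ≠ 0, κ (j y) = j' y := by
  obtain ⟨N, j, h1, h2⟩ := h
  obtain ⟨T, k1, k2, k3⟩ := exists_devel h1.1
  refine ⟨lor0 h1.1.spacetime T, j, ⟨k1, fun S i hS => ?_⟩, fun S i hS => ?_⟩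
  · obtain ⟨κ, a1, a2, a3⟩ := h1.2 _ _ hS.dev
    exact ⟨κ, a1, IsIso.of a1.continuous (isom_comp hS.dev.spacetime h1.1.spacetime
      k1.dev.spacetime a1.continuous a2 k2), a3⟩
  · obtain ⟨κ, a1, a2, a3⟩ := h2 _ _ hS.mghd
    have b1 : IsIso (S := lor0 h1.1.spacetime T) (N := S) κ := IsIso.of κ.continuous
      (isom_comp k1.dev.spacetime h1.1.spacetime hS.1.dev.spacetime continuous_id k3 a1)
    have b2 : IsIso (S := S) (N := lor0 h1.1.spacetime T) κ.symm := IsIso.of κ.symm.continuous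
      (isom_comp hS.1.dev.spacetime h1.1.spacetime k1.dev.spacetime κ.symm.continuous a2 k2)
    exact ⟨⟨κ.toEquiv, b1.1, b2.1⟩, b1, a3⟩

theorem generic {D : Type} [TopologicalSpace D] {f : D → Dat} {P : Set D → Prop}
    (h : ∃ U : Set D, IsOpen U ∧ P U ∧ IsMeagre {d : U | Ext (f d.1)} ∧
      IsMeagre {d : U | ¬ Good (f d.1)} ∧ Dense {d : U | Good (f d.1) ∧ ¬ Ext (f d.1)}) :
    ∃ U : Set D, IsOpen U ∧ P U ∧ IsMeagre {d : U | Extendible (f d.1)} ∧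
      Dense {d : U | ¬ Extendible (f d.1)} := by
  obtain ⟨U, h1, h2, h3, -, h4⟩ := h
  exact ⟨U, h1, h2, h3.mono fun _ k => Extendible.ext k, h4.mono fun _ k k' => k.2 k'.ext⟩

end Vale.Agent.P354M53
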